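/-
P302: an explicit bin packing instance with OPT - LP = 929/768, more than 77/64.
The certificate data and the kernel checks are in Vale.Agent.P302.GapC.
-/
import Vale.Agent.P302.GapC

namespace Vale.Agent.Results.P302.GapBeyond

open Vale.Agent.P302

/-- The instance: 30 items, sizes written with denominator 118980. -/
def theInst : List ℚ :=
  [90390/118980, 90380/118980, 90367/118980, 72990/118980, 52080/118980, 40380/118980, 40380/118980, 40320/118980, 40230/118980, 40230/118980, 40140/118980, 40140/118980, 39780/118980, 39780/118980, 39660/118980, 39600/118980, 39300/118980, 39300/118980, 38700/118980, 38460/118980, 38340/118980, 14310/118980, 14310/118980, 14310/118980, 14310/118980, 14306/118980, 14299/118980, 14299/118980, 14295/118980, 14288/118980]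

theorem theInst_eq : theInst = inst GapC.capL GapC.items := by
  simp [theInst, inst, phi, GapC.capL, GapC.items]

/-- `I` is a valid instance with `OPT I = 11`, `LP I = 7519/768`; hence
`OPT I - LP I = 929/768 > 77/64`. -/
theorem result :
    (∀ a ∈ theInst, 0 < a ∧ a ≤ 1) ∧ OPT theInst = 11 ∧ LP theInst = 7519 / 768 ∧
      (OPT theInst : ℝ) - LP theInst = 929 / 768 ∧
      (77 / 64 : ℝ) < (OPT theInst : ℝ) - LP theInst := by
  have h1 : OPT theInst = 11 := by rw [theInst_eq]; exact GapC.opt_eq
  have h2 : LP theInst = 7519 / 768 := by
    rw [theInst_eq, GapC.lp_eq]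
    norm_num
  have h3 : (OPT theInst : ℝ) - LP theInst = 929 / 768 := by
    rw [h1, h2]
    norm_num
  refine ⟨?_, h1, h2, h3, ?_⟩
  · rw [theInst_eq]
    exact GapC.validI
  · rw [h3]
    norm_num

end Vale.Agent.Results.P302.GapBeyond
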